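import Crest.Agent.Lib.SnakyData.Chk0
import Crest.Agent.Lib.SnakyData.Chk1
import Crest.Agent.Lib.SnakyData.Chk2
import Crest.Agent.Lib.SnakyData.Chk3
import Crest.Agent.Lib.SnakyData.Chk4
import Crest.Agent.Lib.SnakyData.Chk5
import Crest.Agent.Lib.SnakyData.Chk6
import Crest.Agent.Lib.SnakyData.Chk7
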